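import Vale.Agent.P189W88.Main

open scoped ENNReal
open Vale.Agent.P189W88

/-- Gaboriau's fixed price problem has a negative answer. -/
theorem Vale.Agent.Results.P189.ARightActions.result :
    (¬ ∀ (Γ : Type) [Group Γ] [Countable Γ], FixedPrice Γ) ∧
    (∀ K : ℕ, ∃ (Γ : Type) (_ : Group Γ), Countable Γ ∧ Group.IsFinitelyPresented Γ ∧
      Set.Icc (1 : ℝ≥0∞) K ⊆ costs Γ) ∧
    ∃ (Γ : Type) (_ : Group Γ), Countable Γ ∧ costs Γ = Set.Ici 1 :=
  main
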